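import Mathlib

/-!
# P036: consecutive triangles on a convex chain

Helper lemmas for the bound on the smallest triangle spanned by points on the graph of a
convex function.
-/

namespace Vale.Agent.Lib.P036

open Finset

/-- A bounded increasing function of the slope `v / u` (for `u > 0`), written without
the slope: it equals `-1/t` for `t ≤ -1`, `t + 2` for `-1 ≤ t ≤ 1` and `4 - 1/t` for
`1 ≤ t`, where `t = v / u`. -/
noncomputable def pot (u v : ℝ) : ℝ :=
  if v ≤ -u then -u / v else if v ≤ u then v / u + 2 else 4 - u / v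

theorem pot_nonneg {u v : ℝ} (hu : 0 < u) : 0 ≤ pot u v := by
  unfold pot
  split_ifs with h1 h2
  · have hv : v < 0 := by linarith
    have h3 : u / v ≤ 0 := div_nonpos_of_nonneg_of_nonpos hu.le hv.le
    rw [neg_div]
    linarith
  · have h3 : -1 ≤ v / u := by
      rw [le_div_iff₀ hu]
      linarith
    linarith
  · have hv : 0 < v := by linarith
    have h3 : u / v ≤ 1 := by
      rw [div_le_one hv]
      linarith
    linarith

theorem pot_le_four {u v : ℝ} (hu : 0 < u) : pot u v ≤ 4 := by
  unfold pot
  split_ifs with h1 h2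
  · have hv : v < 0 := by linarith
    have h3 : -u / v ≤ 1 := by
      rw [div_le_one_of_neg hv]
      linarith
    linarith
  · have h3 : v / u ≤ 1 := by
      rw [div_le_one hu]
      exact h2
    linarith
  · have hv : 0 < v := by linarith
    have h3 : 0 ≤ u / v := div_nonneg hu.le hv.le
    linarith

theorem pot_eq1 {u v : ℝ} (h1 : v ≤ -u) (hv : v < 0) : pot u v * v = -u := by
  have hv0 : v ≠ 0 := hv.ne
  unfold pot
  rw [if_pos h1]
  field_simp

theorem pot_eq2 {u v : ℝ} (hu : 0 < u) (h1 : ¬ v ≤ -u) (h2 : v ≤ u) :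
    pot u v * u = v + 2 * u := by
  have hu0 : u ≠ 0 := hu.ne'
  unfold pot
  rw [if_neg h1, if_pos h2]
  field_simp

theorem pot_eq3 {u v : ℝ} (h1 : ¬ v ≤ -u) (h2 : ¬ v ≤ u) (hv : 0 < v) :
    pot u v * v = 4 * v - u := by
  have hv0 : v ≠ 0 := hv.ne'
  unfold pot
  rw [if_neg h1, if_neg h2]
  field_simp

/-- The key inequality: twice the area of the triangle on two consecutive edges `(u, v)`,
`(u', v')` of a convex chain is at most the product of the two sup-norm lengths and the
increase of the potential. -/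
theorem key {u v u' v' : ℝ} (hu : 0 < u) (hu' : 0 < u') (h : u' * v ≤ u * v') :
    u * v' - u' * v ≤ max u |v| * max u' |v'| * (pot u' v' - pot u v) := by
  by_cases h1 : v ≤ -u
  · have hv : v < 0 := by linarith
    have hL : max u |v| = -v := by
      rw [abs_of_neg hv]
      exact max_eq_right (by linarith)
    have hp : pot u v * v = -u := pot_eq1 h1 hv
    rw [hL]
    by_cases h1' : v' ≤ -u'
    · have hv' : v' < 0 := by linarith
      have hL' : max u' |v'| = -v' := by
        rw [abs_of_neg hv']
        exact max_eq_right (by linarith)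
      have hp' : pot u' v' * v' = -u' := pot_eq1 h1' hv'
      rw [hL']
      have e : -v * -v' * (pot u' v' - pot u v) = u * v' - u' * v := by
        linear_combination v * hp' - v' * hp
      rw [e]
    · by_cases h2' : v' ≤ u'
      · have hL' : max u' |v'| = u' := max_eq_left (abs_le.2 ⟨by linarith, h2'⟩)
        have hp' : pot u' v' * u' = v' + 2 * u' := pot_eq2 hu' h1' h2'
        rw [hL']
        have e : -v * u' * (pot u' v' - pot u v) = -v * v' - 2 * v * u' - u * u' := by
          linear_combination (-v) * hp' + u' * hp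
        rw [e]
        nlinarith [mul_nonneg (by linarith : (0:ℝ) ≤ -v - u) (by linarith : (0:ℝ) ≤ v' + u')]
      · have hv' : 0 < v' := by linarith
        have hL' : max u' |v'| = v' := by
          rw [abs_of_pos hv']
          exact max_eq_right (by linarith)
        have hp' : pot u' v' * v' = 4 * v' - u' := pot_eq3 h1' h2' hv'
        rw [hL']
        have e : -v * v' * (pot u' v' - pot u v) = -4 * v * v' + v * u' - u * v' := by
          linear_combination (-v) * hp' + v' * hp
        rw [e]
        nlinarith [mul_nonneg (by linarith : (0:ℝ) ≤ -v) (by linarith : (0:ℝ) ≤ v' - u'),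
          mul_nonneg (by linarith : (0:ℝ) ≤ v') (by linarith : (0:ℝ) ≤ -v - u)]
  · by_cases h2 : v ≤ u
    · have hL : max u |v| = u := max_eq_left (abs_le.2 ⟨by linarith, h2⟩)
      have hp : pot u v * u = v + 2 * u := pot_eq2 hu h1 h2
      rw [hL]
      have h1' : ¬ v' ≤ -u' := by
        intro h1'
        nlinarith [mul_pos hu hu']
      by_cases h2' : v' ≤ u'
      · have hL' : max u' |v'| = u' := max_eq_left (abs_le.2 ⟨by linarith, h2'⟩)
        have hp' : pot u' v' * u' = v' + 2 * u' := pot_eq2 hu' h1' h2'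
        rw [hL']
        have e : u * u' * (pot u' v' - pot u v) = u * v' - u' * v := by
          linear_combination u * hp' - u' * hp
        rw [e]
      · have hv' : 0 < v' := by linarith
        have hL' : max u' |v'| = v' := by
          rw [abs_of_pos hv']
          exact max_eq_right (by linarith)
        have hp' : pot u' v' * v' = 4 * v' - u' := pot_eq3 h1' h2' hv'
        rw [hL']
        have e : u * v' * (pot u' v' - pot u v) = 2 * u * v' - u * u' - v * v' := by
          linear_combination u * hp' - v' * hp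
        rw [e]
        nlinarith [mul_nonneg (by linarith : (0:ℝ) ≤ u - v) (by linarith : (0:ℝ) ≤ v' - u')]
    · have hv : 0 < v := by linarith
      have hL : max u |v| = v := by
        rw [abs_of_pos hv]
        exact max_eq_right (by linarith)
      have hp : pot u v * v = 4 * v - u := pot_eq3 h1 h2 hv
      rw [hL]
      have h2' : ¬ v' ≤ u' := by
        intro h2'
        nlinarith [mul_pos hu hu']
      have h1' : ¬ v' ≤ -u' := by
        intro h1'
        nlinarith [mul_pos hu hu']
      have hv' : 0 < v' := by linarith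
      have hL' : max u' |v'| = v' := by
        rw [abs_of_pos hv']
        exact max_eq_right (by linarith)
      have hp' : pot u' v' * v' = 4 * v' - u' := pot_eq3 h1' h2' hv'
      rw [hL']
      have e : v * v' * (pot u' v' - pot u v) = u * v' - u' * v := by
        linear_combination v * hp' - v' * hp
      rw [e]

/-- AM-GM for three nonnegative reals. -/
theorem amgm3 {a b c : ℝ} (ha : 0 ≤ a) (hb : 0 ≤ b) (hc : 0 ≤ c) :
    a * b * c ≤ ((a + b + c) / 3) ^ 3 := by
  nlinarith [mul_nonneg ha (sq_nonneg (b - c)), mul_nonneg hb (sq_nonneg (a - c)),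
    mul_nonneg hc (sq_nonneg (a - b)),
    mul_nonneg (add_nonneg (add_nonneg ha hb) hc) (sq_nonneg (a - b)),
    mul_nonneg (add_nonneg (add_nonneg ha hb) hc) (sq_nonneg (b - c)),
    mul_nonneg (add_nonneg (add_nonneg ha hb) hc) (sq_nonneg (a - c))]

/-- On a convex chain, if an edge goes down then so do all earlier edges. -/
theorem neg_before {m : ℕ} {u v : ℕ → ℝ} (hu : ∀ i ≤ m, 0 < u i)
    (hc : ∀ i < m, u (i + 1) * v i ≤ u i * v (i + 1)) :
    ∀ d i : ℕ, i + d ≤ m → v (i + d) < 0 → v i < 0 := by
  intro d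
  induction d with
  | zero =>
    intro i _ h
    simpa using h
  | succ d ih =>
    intro i hi h
    have h1 : v (i + 1) < 0 := by
      apply ih (i + 1) (by omega)
      rw [show i + 1 + d = i + (d + 1) by omega]
      exact h
    have h2 := hc i (by omega)
    have h3 : 0 < u i := hu i (by omega)
    have h4 : 0 < u (i + 1) := hu (i + 1) (by omega)
    by_contra hcon
    push Not at hcon
    have a : 0 ≤ u (i + 1) * v i := mul_nonneg h4.le hcon
    have b : u i * v (i + 1) < 0 := mul_neg_of_pos_of_neg h3 h1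
    linarith

/-- The total downward variation of the heights along a convex chain in the unit square
is at most the first height. -/
theorem negpart_sum {m : ℕ} {u y : ℕ → ℝ} (hu : ∀ i ≤ m, 0 < u i)
    (hy : ∀ i ≤ m + 1, 0 ≤ y i ∧ y i ≤ 1)
    (hc : ∀ i < m, u (i + 1) * (y (i + 1) - y i) ≤ u i * (y (i + 1 + 1) - y (i + 1))) :
    ∀ k ≤ m + 1, ∑ i ∈ range k, max (-(y (i + 1) - y i)) 0 ≤ y 0 := by
  intro k
  induction k with
  | zero =>
    intro _
    simpa using (hy 0 (by omega)).1
  | succ k ih =>
    intro hk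
    by_cases hv : 0 ≤ y (k + 1) - y k
    · rw [sum_range_succ, max_eq_right (by linarith)]
      have := ih (by omega)
      linarith
    · push Not at hv
      have hall : ∀ i ≤ k, y (i + 1) - y i < 0 := by
        intro i hi
        apply neg_before (v := fun i => y (i + 1) - y i) hu hc (k - i) i (by omega)
        rw [show i + (k - i) = k by omega]
        exact hv
      have hsum : ∑ i ∈ range (k + 1), max (-(y (i + 1) - y i)) 0
          = ∑ i ∈ range (k + 1), (y i - y (i + 1)) := by
        apply sum_congr rfl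
        intro i hi
        have := hall i (Nat.lt_succ_iff.1 (mem_range.1 hi))
        rw [max_eq_left (by linarith)]
        ring
      rw [hsum, sum_range_sub']
      have h0 := hy 0 (by omega)
      have h1 := hy (k + 1) hk
      linarith

/-- Main lemma: a convex chain with `m + 2` vertices in the unit square has a consecutive
triple whose doubled triangle area is at most `(10 / (3 m))^3`. -/
theorem chain_main (m : ℕ) (hm : 0 < m) (x y : ℕ → ℝ)
    (hx : ∀ i ≤ m, x i < x (i + 1)) (hx0 : 0 ≤ x 0) (hx1 : x (m + 1) ≤ 1)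
    (hy : ∀ i ≤ m + 1, 0 ≤ y i ∧ y i ≤ 1)
    (hc : ∀ i < m, (x (i + 1 + 1) - x (i + 1)) * (y (i + 1) - y i)
      ≤ (x (i + 1) - x i) * (y (i + 1 + 1) - y (i + 1))) :
    ∃ i < m, (x (i + 1) - x i) * (y (i + 1 + 1) - y (i + 1))
      - (x (i + 1 + 1) - x (i + 1)) * (y (i + 1) - y i) ≤ (10 / (3 * (m : ℝ))) ^ 3 := by
  have hu : ∀ i ≤ m, 0 < x (i + 1) - x i := fun i hi => sub_pos.2 (hx i hi)
  have hsu : ∑ i ∈ range (m + 1), (x (i + 1) - x i) ≤ 1 := by
    rw [sum_range_sub]
    linarith
  have hneg : ∑ i ∈ range (m + 1), max (-(y (i + 1) - y i)) 0 ≤ y 0 :=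
    negpart_sum (u := fun i => x (i + 1) - x i) hu hy hc (m + 1) le_rfl
  have hsv : ∑ i ∈ range (m + 1), |y (i + 1) - y i| ≤ 2 := by
    have e : ∀ t : ℝ, |t| = t + 2 * max (-t) 0 := by
      intro t
      rcases le_or_gt 0 t with h | h
      · rw [abs_of_nonneg h, max_eq_right (by linarith)]
        ring
      · rw [abs_of_neg h, max_eq_left (by linarith)]
        ring
    have e2 : ∑ i ∈ range (m + 1), |y (i + 1) - y i|
        = ∑ i ∈ range (m + 1), (y (i + 1) - y i)
          + 2 * ∑ i ∈ range (m + 1), max (-(y (i + 1) - y i)) 0 := by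
      rw [mul_sum, ← sum_add_distrib]
      exact sum_congr rfl (fun i _ => e _)
    have e3 : ∑ i ∈ range (m + 1), (y (i + 1) - y i) = y (m + 1) - y 0 := by
      rw [sum_range_sub]
    have h1 := hy (m + 1) le_rfl
    have h0 := hy 0 (by omega)
    linarith
  set L : ℕ → ℝ := fun i => max (x (i + 1) - x i) |y (i + 1) - y i| with hL_def
  set P : ℕ → ℝ := fun i => pot (x (i + 1) - x i) (y (i + 1) - y i) with hP_def
  have hL0 : ∀ i ≤ m, 0 < L i := fun i hi => lt_max_of_lt_left (hu i hi)
  have hsL : ∑ i ∈ range (m + 1), L i ≤ 3 := by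
    calc ∑ i ∈ range (m + 1), L i
        ≤ ∑ i ∈ range (m + 1), ((x (i + 1) - x i) + |y (i + 1) - y i|) := by
          apply sum_le_sum
          intro i hi
          have h1 := hu i (Nat.lt_succ_iff.1 (mem_range.1 hi))
          have h2 := abs_nonneg (y (i + 1) - y i)
          exact max_le (by linarith) (by linarith)
      _ = ∑ i ∈ range (m + 1), (x (i + 1) - x i) + ∑ i ∈ range (m + 1), |y (i + 1) - y i| :=
          sum_add_distrib
      _ ≤ 3 := by linarith
  have hkey : ∀ i < m, (x (i + 1) - x i) * (y (i + 1 + 1) - y (i + 1))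
      - (x (i + 1 + 1) - x (i + 1)) * (y (i + 1) - y i)
      ≤ L i * L (i + 1) * (P (i + 1) - P i) :=
    fun i hi => key (hu i hi.le) (hu (i + 1) hi) (hc i hi)
  have hm' : (m : ℝ) ≠ 0 := by positivity
  have htot : ∑ i ∈ range m, (L i + L (i + 1) + (P (i + 1) - P i))
      ≤ ∑ _i ∈ range m, (10 / (m : ℝ)) := by
    rw [sum_const, card_range, nsmul_eq_mul, mul_div_cancel₀ _ hm']
    rw [sum_add_distrib, sum_add_distrib, sum_range_sub]
    have a1 : ∑ i ∈ range m, L i ≤ ∑ i ∈ range (m + 1), L i := by
      rw [sum_range_succ]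
      linarith [hL0 m le_rfl]
    have a2 : ∑ i ∈ range m, L (i + 1) ≤ ∑ i ∈ range (m + 1), L i := by
      rw [sum_range_succ']
      linarith [hL0 0 (Nat.zero_le _)]
    have a3 : P m ≤ 4 := pot_le_four (hu m le_rfl)
    have a4 : 0 ≤ P 0 := pot_nonneg (hu 0 (Nat.zero_le _))
    linarith
  obtain ⟨i, hi, hle⟩ := exists_le_of_sum_le (nonempty_range_iff.2 hm.ne') htot
  have hi' : i < m := mem_range.1 hi
  refine ⟨i, hi', ?_⟩
  have hD := hkey i hi'
  have hLL : 0 < L i * L (i + 1) := mul_pos (hL0 i hi'.le) (hL0 (i + 1) hi')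
  have hdiff : 0 ≤ P (i + 1) - P i := by
    have hD0 := hc i hi'
    by_contra hcon
    push Not at hcon
    have := mul_neg_of_pos_of_neg hLL hcon
    linarith
  have h3 := amgm3 (hL0 i hi'.le).le (hL0 (i + 1) hi').le hdiff
  have h4 : (L i + L (i + 1) + (P (i + 1) - P i)) / 3 ≤ 10 / (3 * (m : ℝ)) := by
    rw [div_le_iff₀ (by norm_num : (0:ℝ) < 3)]
    calc L i + L (i + 1) + (P (i + 1) - P i) ≤ 10 / (m : ℝ) := hle
      _ = 10 / (3 * (m : ℝ)) * 3 := by
        field_simp
  have h5 : 0 ≤ (L i + L (i + 1) + (P (i + 1) - P i)) / 3 := by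
    have := (hL0 i hi'.le).le
    have := (hL0 (i + 1) hi').le
    positivity
  calc _ ≤ L i * L (i + 1) * (P (i + 1) - P i) := hD
    _ ≤ ((L i + L (i + 1) + (P (i + 1) - P i)) / 3) ^ 3 := h3
    _ ≤ (10 / (3 * (m : ℝ))) ^ 3 := pow_le_pow_left₀ h5 h4 3

end Vale.Agent.Lib.P036
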