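import Mathlib
import Vale.Agent.Lib.P036.Chain

/-!
# P036: point sets in convex position

A set in convex position splits into the points above and the points below the line through
its leftmost and its rightmost point; each part is a concave or a convex chain.
-/

namespace Vale.Agent.Lib.P036

open Finset

/-- The chain bound for a function that is convex on a finite set of abscissae. -/
theorem chain_discrete (g : ℝ → ℝ) (S : Finset ℝ) (hS : ∀ x ∈ S, x ∈ Set.Icc (0 : ℝ) 1)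
    (hg : ∀ x ∈ S, g x ∈ Set.Icc (0 : ℝ) 1)
    (hconv : ∀ a ∈ S, ∀ b ∈ S, ∀ c ∈ S, a < b → b < c →
      (c - b) * (g b - g a) ≤ (b - a) * (g c - g b))
    (h3 : 3 ≤ S.card) :
    ∃ a ∈ S, ∃ b ∈ S, ∃ c ∈ S, a < b ∧ b < c ∧
      |(b - a) * (g c - g a) - (g b - g a) * (c - a)| / 2 ≤ 19 / ((S.card : ℝ) - 2) ^ 3 := by
  set e := S.orderEmbOfFin (rfl : S.card = S.card) with he
  let X : ℕ → ℝ := fun i => if h : i < S.card then e ⟨i, h⟩ else 0
  have hXmem : ∀ i, i < S.card → X i ∈ S := by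
    intro i hi
    simp only [X, dif_pos hi]
    exact S.orderEmbOfFin_mem rfl _
  have hXlt : ∀ i j, i < j → j < S.card → X i < X j := by
    intro i j hij hj
    have hi : i < S.card := lt_trans hij hj
    simp only [X, dif_pos hi, dif_pos hj]
    exact e.strictMono (Fin.mk_lt_mk.2 hij)
  obtain ⟨m, hm⟩ : ∃ m, S.card = m + 2 := ⟨S.card - 2, by omega⟩
  have hmpos : 0 < m := by omega
  have hXS : ∀ i, i ≤ m + 1 → X i ∈ S := fun i hi => hXmem i (by omega)
  have hc : ∀ i < m, (X (i + 1 + 1) - X (i + 1)) * (g (X (i + 1)) - g (X i))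
      ≤ (X (i + 1) - X i) * (g (X (i + 1 + 1)) - g (X (i + 1))) := by
    intro i hi
    exact hconv _ (hXS i (by omega)) _ (hXS (i + 1) (by omega)) _ (hXS (i + 1 + 1) (by omega))
      (hXlt _ _ (by omega) (by omega)) (hXlt _ _ (by omega) (by omega))
  obtain ⟨i, hi, hD⟩ := chain_main m hmpos X (fun i => g (X i))
    (fun i hi => hXlt _ _ (by omega) (by omega)) (hS _ (hXS 0 (by omega))).1
    (hS _ (hXS (m + 1) le_rfl)).2 (fun i hi => hg _ (hXS i hi)) hc
  have hD0 := hc i hi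
  refine ⟨X i, hXmem i (by omega), X (i + 1), hXmem _ (by omega), X (i + 1 + 1),
    hXmem _ (by omega), hXlt _ _ (by omega) (by omega), hXlt _ _ (by omega) (by omega), ?_⟩
  have hcard : (S.card : ℝ) - 2 = m := by
    rw [hm]
    push_cast
    ring
  have hmR : (0 : ℝ) < m := by exact_mod_cast hmpos
  have hdet : (X (i + 1) - X i) * (g (X (i + 1 + 1)) - g (X i))
      - (g (X (i + 1)) - g (X i)) * (X (i + 1 + 1) - X i)
      = (X (i + 1) - X i) * (g (X (i + 1 + 1)) - g (X (i + 1)))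
        - (X (i + 1 + 1) - X (i + 1)) * (g (X (i + 1)) - g (X i)) := by
    ring
  have ht : (0 : ℝ) ≤ 1 / (m : ℝ) ^ 3 := by positivity
  have e1 : (10 / (3 * (m : ℝ))) ^ 3 = 1000 / 27 * (1 / (m : ℝ) ^ 3) := by
    field_simp
    ring
  have e2 : 19 / (m : ℝ) ^ 3 = 19 * (1 / (m : ℝ) ^ 3) := by
    ring
  rw [hdet, abs_of_nonneg (by linarith), hcard, e2]
  rw [e1] at hD
  linarith

/-- The determinant of `q - p` and `r - p`. -/
def cross (p q r : ℝ × ℝ) : ℝ := (q.1 - p.1) * (r.2 - p.2) - (q.2 - p.2) * (r.1 - p.1)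

/-- The ordinate of the line through `A` and `B` at the abscissa `x`. -/
noncomputable def lineAt (A B : ℝ × ℝ) (x : ℝ) : ℝ :=
  A.2 + (B.2 - A.2) * (x - A.1) / (B.1 - A.1)

theorem lineAt_mem_segment {A B : ℝ × ℝ} (hAB : A.1 < B.1) {x : ℝ} (h1 : A.1 ≤ x)
    (h2 : x ≤ B.1) : ((x, lineAt A B x) : ℝ × ℝ) ∈ segment ℝ A B := by
  have hd : 0 < B.1 - A.1 := sub_pos.2 hAB
  have hd' : B.1 - A.1 ≠ 0 := hd.ne'
  refine ⟨(B.1 - x) / (B.1 - A.1), (x - A.1) / (B.1 - A.1), div_nonneg (by linarith) hd.le,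
    div_nonneg (by linarith) hd.le, ?_, ?_⟩
  · field_simp
    ring
  · apply Prod.ext
    · simp only [Prod.fst_add, Prod.smul_fst, smul_eq_mul]
      field_simp
      ring
    · simp only [Prod.snd_add, Prod.smul_snd, smul_eq_mul, lineAt]
      field_simp
      ring

theorem vert_mem_segment {x y1 y2 y : ℝ} (h : (y1 ≤ y ∧ y ≤ y2) ∨ (y2 ≤ y ∧ y ≤ y1)) :
    ((x, y) : ℝ × ℝ) ∈ segment ℝ ((x, y1) : ℝ × ℝ) (x, y2) := by
  rw [← Prod.image_mk_segment_right, segment_eq_uIcc]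
  exact ⟨y, Set.mem_uIcc.2 h, rfl⟩

theorem cross_eq_lineAt {A B : ℝ × ℝ} (hAB : A.1 < B.1) (q : ℝ × ℝ) :
    cross A B q = (B.1 - A.1) * (q.2 - lineAt A B q.1) := by
  have hd : B.1 - A.1 ≠ 0 := (sub_pos.2 hAB).ne'
  unfold cross lineAt
  field_simp
  ring

theorem pos_of_mul_pos_aux {d t : ℝ} (hd : 0 < d) (h : 0 < d * t) : 0 < t := by
  by_contra hc
  push Not at hc
  nlinarith

theorem nonneg_of_mul_nonneg_aux {d t : ℝ} (hd : 0 < d) (h : 0 ≤ d * t) : 0 ≤ t := by
  by_contra hc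
  push Not at hc
  nlinarith

/-- A point `q` on the `σ`-side of the line `AB`, between `p` and `r` in abscissa and not
strictly beyond the segment `pr`, lies in the convex hull of `A`, `B`, `p`, `r`. -/
theorem mem_hull_of_bad {A B p q r : ℝ × ℝ} {σ : ℝ} (hσ : σ = 1 ∨ σ = -1) (hAB : A.1 < B.1)
    (h1 : A.1 ≤ q.1) (h2 : q.1 ≤ B.1) (hpq : p.1 < q.1) (hqr : q.1 < r.1)
    (hside : 0 < σ * cross A B q) (hbad : 0 ≤ σ * cross p q r) :
    q ∈ convexHull ℝ ({A, B, p, r} : Set (ℝ × ℝ)) := by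
  have hq2 : ((q.1, lineAt A B q.1) : ℝ × ℝ) ∈ convexHull ℝ ({A, B, p, r} : Set (ℝ × ℝ)) :=
    segment_subset_convexHull (by simp) (by simp) (lineAt_mem_segment hAB h1 h2)
  have hq1 : ((q.1, lineAt p r q.1) : ℝ × ℝ) ∈ convexHull ℝ ({A, B, p, r} : Set (ℝ × ℝ)) :=
    segment_subset_convexHull (by simp) (by simp)
      (lineAt_mem_segment (hpq.trans hqr) hpq.le hqr.le)
  have e1 := cross_eq_lineAt hAB q
  have e2 : cross p q r = (r.1 - p.1) * (lineAt p r q.1 - q.2) := by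
    have h := cross_eq_lineAt (hpq.trans hqr) q
    have anti : cross p q r = -cross p r q := by
      unfold cross
      ring
    rw [anti, h]
    ring
  have hd1 : 0 < B.1 - A.1 := sub_pos.2 hAB
  have hd2 : 0 < r.1 - p.1 := sub_pos.2 (hpq.trans hqr)
  have hmem : q ∈ segment ℝ ((q.1, lineAt A B q.1) : ℝ × ℝ) (q.1, lineAt p r q.1) := by
    have hq : q = (q.1, q.2) := rfl
    rw [hq]
    apply vert_mem_segment
    rw [e1] at hside
    rw [e2] at hbad
    rcases hσ with rfl | rfl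
    · left
      have a1 : 0 < q.2 - lineAt A B q.1 := pos_of_mul_pos_aux hd1 (by linarith)
      have a2 : 0 ≤ lineAt p r q.1 - q.2 := nonneg_of_mul_nonneg_aux hd2 (by linarith)
      exact ⟨by linarith, by linarith⟩
    · right
      have a1 : 0 < lineAt A B q.1 - q.2 := pos_of_mul_pos_aux hd1 (by linarith)
      have a2 : 0 ≤ q.2 - lineAt p r q.1 := nonneg_of_mul_nonneg_aux hd2 (by linarith)
      exact ⟨by linarith, by linarith⟩
  exact (convex_convexHull ℝ _).segment_subset hq2 hq1 hmem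

/-- Of two points on the `σ`-side of the line `AB` with the same abscissa, the one nearer to
the line lies in the convex hull of `A`, `B` and the other one. -/
theorem mem_hull_of_same_abscissa {A B p q : ℝ × ℝ} {σ : ℝ} (hσ : σ = 1 ∨ σ = -1)
    (hAB : A.1 < B.1) (h1 : A.1 ≤ p.1) (h2 : p.1 ≤ B.1) (hx : p.1 = q.1)
    (hp : 0 < σ * cross A B p) (hlt : σ * p.2 < σ * q.2) :
    p ∈ convexHull ℝ ({A, B, q} : Set (ℝ × ℝ)) := by
  have hq2 : ((p.1, lineAt A B p.1) : ℝ × ℝ) ∈ convexHull ℝ ({A, B, q} : Set (ℝ × ℝ)) :=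
    segment_subset_convexHull (by simp) (by simp) (lineAt_mem_segment hAB h1 h2)
  have hqm : ((p.1, q.2) : ℝ × ℝ) ∈ convexHull ℝ ({A, B, q} : Set (ℝ × ℝ)) := by
    have hq : ((p.1, q.2) : ℝ × ℝ) = q := by
      rw [hx]
    rw [hq]
    exact subset_convexHull ℝ _ (by simp)
  have e1 := cross_eq_lineAt hAB p
  have hd1 : 0 < B.1 - A.1 := sub_pos.2 hAB
  have hmem : p ∈ segment ℝ ((p.1, lineAt A B p.1) : ℝ × ℝ) (p.1, q.2) := by
    have hq : p = (p.1, p.2) := rfl
    rw [hq]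
    apply vert_mem_segment
    rw [e1] at hp
    rcases hσ with rfl | rfl
    · left
      have a1 : 0 < p.2 - lineAt A B p.1 := pos_of_mul_pos_aux hd1 (by linarith)
      exact ⟨by linarith, by linarith⟩
    · right
      have a1 : 0 < lineAt A B p.1 - p.2 := pos_of_mul_pos_aux hd1 (by linarith)
      exact ⟨by linarith, by linarith⟩
  exact (convex_convexHull ℝ _).segment_subset hq2 hqm hmem

/-- Main theorem for point sets in convex position in the unit square. -/
theorem convex_position_main (P : Finset (ℝ × ℝ))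
    (hsq : ∀ p ∈ P, p.1 ∈ Set.Icc (0 : ℝ) 1 ∧ p.2 ∈ Set.Icc (0 : ℝ) 1)
    (hCI : ∀ q ∈ P, q ∉ convexHull ℝ ((P : Set (ℝ × ℝ)) \ {q}))
    (h7 : 7 ≤ P.card) :
    ∃ p ∈ P, ∃ q ∈ P, ∃ r ∈ P, p ≠ q ∧ p ≠ r ∧ q ≠ r ∧
      |cross p q r| / 2 ≤ 152 / ((P.card : ℝ) - 6) ^ 3 := by
  classical
  have hn6 : (0 : ℝ) < (P.card : ℝ) - 6 := by
    have : (7 : ℝ) ≤ P.card := by exact_mod_cast h7
    linarith
  by_cases hcol : ∃ p ∈ P, ∃ q ∈ P, ∃ r ∈ P, p ≠ q ∧ p ≠ r ∧ q ≠ r ∧ cross p q r = 0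
  · obtain ⟨p, hp, q, hq, r, hr, h1, h2, h3, h0⟩ := hcol
    refine ⟨p, hp, q, hq, r, hr, h1, h2, h3, ?_⟩
    rw [h0, abs_zero, zero_div]
    positivity
  push Not at hcol
  have hne : P.Nonempty := card_pos.1 (by omega)
  obtain ⟨A, hA, hAmin⟩ := P.exists_min_image Prod.fst hne
  obtain ⟨B, hB, hBmax⟩ := P.exists_max_image Prod.fst hne
  have hAB : A.1 < B.1 := by
    by_contra hcon
    push Not at hcon
    have hall : ∀ p ∈ P, p.1 = A.1 :=
      fun p hp => le_antisymm ((hBmax p hp).trans hcon) (hAmin p hp)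
    obtain ⟨a, ha, b, hb, c, hc, hab, hac, hbc⟩ := two_lt_card.1 (by omega : 2 < P.card)
    apply hcol a ha b hb c hc hab hac hbc
    unfold cross
    rw [hall a ha, hall b hb, hall c hc]
    ring
  have hAB' : A ≠ B := by
    intro h
    rw [h] at hAB
    exact lt_irrefl _ hAB
  have hcrossA : cross A B A = 0 := by
    unfold cross
    ring
  have hcrossB : cross A B B = 0 := by
    unfold cross
    ring
  have hcover : P ⊆ insert A (insert B
      (P.filter (fun q => 0 < (1 : ℝ) * cross A B q)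
        ∪ P.filter (fun q => 0 < (-1 : ℝ) * cross A B q))) := by
    intro q hq
    by_cases hqA : q = A
    · simp [hqA]
    by_cases hqB : q = B
    · simp [hqB]
    have h := hcol A hA B hB q hq hAB' (Ne.symm hqA) (Ne.symm hqB)
    simp only [mem_insert, mem_union, mem_filter]
    rcases lt_or_gt_of_ne h with h | h
    · right
      right
      right
      exact ⟨hq, by linarith⟩
    · right
      right
      left
      exact ⟨hq, by linarith⟩
  have hcard : P.card ≤ 2 + (P.filter (fun q => 0 < (1 : ℝ) * cross A B q)).card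
      + (P.filter (fun q => 0 < (-1 : ℝ) * cross A B q)).card := by
    have c1 := card_le_card hcover
    have c2 := card_insert_le A (insert B
      (P.filter (fun q => 0 < (1 : ℝ) * cross A B q)
        ∪ P.filter (fun q => 0 < (-1 : ℝ) * cross A B q)))
    have c3 := card_insert_le B
      (P.filter (fun q => 0 < (1 : ℝ) * cross A B q)
        ∪ P.filter (fun q => 0 < (-1 : ℝ) * cross A B q))
    have c4 := card_union_le (P.filter (fun q => 0 < (1 : ℝ) * cross A B q))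
      (P.filter (fun q => 0 < (-1 : ℝ) * cross A B q))
    omega
  obtain ⟨σ, hσ, hbig⟩ : ∃ σ : ℝ, (σ = 1 ∨ σ = -1) ∧
      P.card ≤ 2 + 2 * (P.filter (fun q => 0 < σ * cross A B q)).card := by
    rcases le_total (P.filter (fun q => 0 < (1 : ℝ) * cross A B q)).card
      (P.filter (fun q => 0 < (-1 : ℝ) * cross A B q)).card with h | h
    · exact ⟨-1, Or.inr rfl, by omega⟩
    · exact ⟨1, Or.inl rfl, by omega⟩
  set Q : Finset (ℝ × ℝ) := P.filter (fun q => 0 < σ * cross A B q) with hQ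
  have hQP : ∀ q ∈ Q, q ∈ P := fun q hq => (mem_filter.1 hq).1
  have hQs : ∀ q ∈ Q, 0 < σ * cross A B q := fun q hq => (mem_filter.1 hq).2
  have hQA : ∀ q ∈ Q, q ≠ A := by
    intro q hq h
    have := hQs q hq
    rw [h, hcrossA] at this
    simp at this
  have hQB : ∀ q ∈ Q, q ≠ B := by
    intro q hq h
    have := hQs q hq
    rw [h, hcrossB] at this
    simp at this
  have hinj0 : ∀ p ∈ Q, ∀ q ∈ Q, p.1 = q.1 → σ * p.2 < σ * q.2 → False := by
    intro p hp q hq hx h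
    have hm := mem_hull_of_same_abscissa hσ hAB (hAmin p (hQP p hp)) (hBmax p (hQP p hp)) hx
      (hQs p hp) h
    refine hCI p (hQP p hp) (convexHull_mono ?_ hm)
    intro z hz
    simp only [Set.mem_insert_iff, Set.mem_singleton_iff] at hz
    rcases hz with rfl | rfl | rfl
    · exact ⟨mem_coe.2 hA, fun h' => hQA p hp (Eq.symm h')⟩
    · exact ⟨mem_coe.2 hB, fun h' => hQB p hp (Eq.symm h')⟩
    · refine ⟨mem_coe.2 (hQP _ hq), fun h' => ?_⟩
      have h'' : z = p := h'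
      rw [h''] at h
      exact lt_irrefl _ h
  have hinj : ∀ p ∈ Q, ∀ q ∈ Q, p.1 = q.1 → p = q := by
    intro p hp q hq hx
    by_contra hpq
    have hy : p.2 ≠ q.2 := fun h => hpq (Prod.ext hx h)
    have hσ0 : σ ≠ 0 := by
      rcases hσ with rfl | rfl <;> norm_num
    have hσy : σ * p.2 ≠ σ * q.2 := fun h => hy (mul_left_cancel₀ hσ0 h)
    rcases lt_or_gt_of_ne hσy with h | h
    · exact hinj0 p hp q hq hx h
    · exact hinj0 q hq p hp hx.symm h
  have hchain : ∀ p ∈ Q, ∀ q ∈ Q, ∀ r ∈ Q, p.1 < q.1 → q.1 < r.1 → σ * cross p q r < 0 := by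
    intro p hp q hq r hr hpq hqr
    by_contra hcon
    push Not at hcon
    have hm := mem_hull_of_bad hσ hAB (hAmin q (hQP q hq)) (hBmax q (hQP q hq)) hpq hqr
      (hQs q hq) hcon
    refine hCI q (hQP q hq) (convexHull_mono ?_ hm)
    intro z hz
    simp only [Set.mem_insert_iff, Set.mem_singleton_iff] at hz
    rcases hz with rfl | rfl | rfl | rfl
    · exact ⟨mem_coe.2 hA, fun h' => hQA q hq (Eq.symm h')⟩
    · exact ⟨mem_coe.2 hB, fun h' => hQB q hq (Eq.symm h')⟩
    · refine ⟨mem_coe.2 (hQP _ hp), fun h' => ?_⟩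
      have h'' : z = q := h'
      rw [h''] at hpq
      exact lt_irrefl _ hpq
    · refine ⟨mem_coe.2 (hQP _ hr), fun h' => ?_⟩
      have h'' : z = q := h'
      rw [h''] at hqr
      exact lt_irrefl _ hqr
  -- the chain as a graph
  set g : ℝ → ℝ := fun x => if h : ∃ p ∈ Q, p.1 = x then (Classical.choose h).2 else 0 with hg
  have hgp : ∀ p ∈ Q, g p.1 = p.2 := by
    intro p hp
    have h : ∃ p' ∈ Q, p'.1 = p.1 := ⟨p, hp, rfl⟩
    have hspec := Classical.choose_spec h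
    simp only [hg, dif_pos h]
    rw [hinj _ hspec.1 p hp hspec.2]
  set S : Finset ℝ := Q.image Prod.fst with hS
  have hScard : S.card = Q.card :=
    card_image_of_injOn (fun p hp q hq h => hinj p hp q hq h)
  have hSmem : ∀ x ∈ S, ∃ p ∈ Q, p.1 = x ∧ g x = p.2 := by
    intro x hx
    obtain ⟨p, hp, rfl⟩ := mem_image.1 hx
    exact ⟨p, hp, rfl, hgp p hp⟩
  set G : ℝ → ℝ := fun x => (1 + σ) / 2 - σ * g x with hG
  have hS01 : ∀ x ∈ S, x ∈ Set.Icc (0 : ℝ) 1 := by
    intro x hx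
    obtain ⟨p, hp, rfl, -⟩ := hSmem x hx
    exact (hsq p (hQP p hp)).1
  have hG01 : ∀ x ∈ S, G x ∈ Set.Icc (0 : ℝ) 1 := by
    intro x hx
    obtain ⟨p, hp, rfl, hgx⟩ := hSmem x hx
    have h2 := (hsq p (hQP p hp)).2
    simp only [hG, hgx]
    rcases hσ with rfl | rfl
    · exact ⟨by linarith [h2.2], by linarith [h2.1]⟩
    · exact ⟨by linarith [h2.1], by linarith [h2.2]⟩
  have hconv : ∀ a ∈ S, ∀ b ∈ S, ∀ c ∈ S, a < b → b < c →
      (c - b) * (G b - G a) ≤ (b - a) * (G c - G b) := by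
    intro a ha b hb c hc hab hbc
    obtain ⟨p, hp, rfl, hga⟩ := hSmem a ha
    obtain ⟨q, hq, rfl, hgb⟩ := hSmem b hb
    obtain ⟨r, hr, rfl, hgc⟩ := hSmem c hc
    have h := hchain p hp q hq r hr hab hbc
    simp only [hG, hga, hgb, hgc]
    unfold cross at h
    have hσ2 : σ * σ = 1 := by
      rcases hσ with rfl | rfl <;> norm_num
    nlinarith
  have h3 : 3 ≤ S.card := by
    rw [hScard]
    omega
  obtain ⟨a, ha, b, hb, c, hc, hab, hbc, harea⟩ := chain_discrete G S hS01 hG01 hconv h3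
  obtain ⟨p, hp, rfl, hga⟩ := hSmem a ha
  obtain ⟨q, hq, rfl, hgb⟩ := hSmem b hb
  obtain ⟨r, hr, rfl, hgc⟩ := hSmem c hc
  refine ⟨p, hQP p hp, q, hQP q hq, r, hQP r hr, ?_, ?_, ?_, ?_⟩
  · intro h
    rw [h] at hab
    exact lt_irrefl _ hab
  · intro h
    rw [h] at hab
    exact lt_irrefl _ (hab.trans hbc)
  · intro h
    rw [h] at hbc
    exact lt_irrefl _ hbc
  · have e : |(q.1 - p.1) * (G r.1 - G p.1) - (G q.1 - G p.1) * (r.1 - p.1)| = |cross p q r| := by
      simp only [hG, hga, hgb, hgc]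
      unfold cross
      rcases hσ with rfl | rfl
      · rw [← abs_neg]
        congr 1
        ring
      · congr 1
        ring
    rw [e] at harea
    refine harea.trans ?_
    have hm2 : ((P.card : ℝ) - 6) / 2 ≤ (S.card : ℝ) - 2 := by
      have : (P.card : ℝ) ≤ 2 + 2 * (S.card : ℝ) := by
        rw [hScard]
        exact_mod_cast hbig
      linarith
    have hpos : (0 : ℝ) < ((P.card : ℝ) - 6) / 2 := by positivity
    have hcube : (((P.card : ℝ) - 6) / 2) ^ 3 ≤ ((S.card : ℝ) - 2) ^ 3 :=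
      pow_le_pow_left₀ hpos.le hm2 3
    have e3 : (152 : ℝ) / ((P.card : ℝ) - 6) ^ 3 = 19 / (((P.card : ℝ) - 6) / 2) ^ 3 := by
      field_simp
      ring
    rw [e3]
    exact div_le_div_of_nonneg_left (by norm_num) (by positivity) hcube

end Vale.Agent.Lib.P036
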